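import Vale.Agent.P156.FE.Spec
import Vale.Agent.P156.H992.PhiSum
import Vale.Agent.P156.H613.BridgeM

/-! # Block FE1: scalar facts on `m(z)` and the coordinate `TT`, uniformly for `z = E + iη`. -/

open Filter Topology Matrix Finset Complex

namespace Vale.Agent.P156.H913

open Vale.Agent.P156.FE _root_.P156.H613 _root_.P156.Gap

noncomputable section

variable {q : ℕ} {z m : ℂ}

/-- `s = 2 q m + z` satisfies `s² = z² - 4q`. -/
lemma disc_sq (h : IsM q z m) : (2 * (q : ℂ) * m + z) ^ 2 = z ^ 2 - 4 * q := by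
  linear_combination (4 * (q : ℂ)) * h.eq

/-- `(2 q Im m + Im z)² ≥ 4q - (Re z)² + (Im z)²`. -/
lemma im_disc (h : IsM q z m) :
    4 * (q : ℝ) - z.re ^ 2 + z.im ^ 2 ≤ (2 * q * m.im + z.im) ^ 2 := by
  have h1 := congrArg Complex.re (disc_sq h)
  have e1 : (2 * (q : ℂ) * m + z).re = 2 * q * m.re + z.re := by
    simp
  have e2 : (2 * (q : ℂ) * m + z).im = 2 * q * m.im + z.im := by
    simp
  rw [pow_two, Complex.mul_re, e1, e2, Complex.sub_re, pow_two, Complex.mul_re] at h1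
  have e3 : ((4 : ℂ) * (q : ℂ)).re = 4 * q := by simp
  rw [e3] at h1
  nlinarith [sq_nonneg (2 * (q : ℝ) * m.re + z.re)]

/-- Lower bound for `Im m`. -/
lemma im_low (h : IsM q z m) (hq : 1 ≤ q) (hz : 0 ≤ z.im) (hz1 : z.im ≤ 1) :
    (4 * (q : ℝ) - z.re ^ 2) / (4 * q ^ 2 + 4 * q) ≤ m.im := by
  have h1 := im_disc h
  have h2 := h.im_pos
  have h3 := h.im_le_one hz hq
  have hq' : (1 : ℝ) ≤ q := by exact_mod_cast hq
  rw [div_le_iff₀ (by positivity)]
  have e : (2 * (q : ℝ) * m.im + z.im) ^ 2 = m.im * (4 * q ^ 2 * m.im + 4 * q * z.im) + z.im ^ 2 := by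
    ring
  rw [e] at h1
  have h4 : m.im * (4 * q ^ 2 * m.im + 4 * q * z.im) ≤ m.im * (4 * q ^ 2 + 4 * q) := by
    apply mul_le_mul_of_nonneg_left _ h2.le
    have : 4 * (q : ℝ) ^ 2 * m.im ≤ 4 * q ^ 2 * 1 := by gcongr
    have : 4 * (q : ℝ) * z.im ≤ 4 * q * 1 := by gcongr
    linarith
  linarith

lemma inv_eq (h : IsM q z m) : m⁻¹ = -(z + q * m) := by
  rw [← h.neg_inv]
  field_simp

/-- `1 - q m² = - m (2 q m + z)`. -/
lemma gap_eq (h : IsM q z m) : 1 - (q : ℂ) * m ^ 2 = -(m * (2 * q * m + z)) := by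
  linear_combination h.eq

lemma gap_low (h : IsM q z m) (hz : 0 ≤ z.im) (hq : 1 ≤ q) :
    m.im ^ 2 ≤ ‖1 - (q : ℂ) * m ^ 2‖ := by
  rw [gap_eq h, norm_neg, norm_mul]
  have h2 := h.im_pos
  have h1 : m.im ≤ ‖m‖ := (le_abs_self _).trans (Complex.abs_im_le_norm m)
  have hq' : (1 : ℝ) ≤ q := by exact_mod_cast hq
  have h3 : m.im ≤ ‖2 * (q : ℂ) * m + z‖ := by
    have e : (2 * (q : ℂ) * m + z).im = 2 * q * m.im + z.im := by simp
    calc m.im ≤ 2 * q * m.im + z.im := by nlinarith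
      _ = (2 * (q : ℂ) * m + z).im := e.symm
      _ ≤ _ := (le_abs_self _).trans (Complex.abs_im_le_norm _)
  calc m.im ^ 2 = m.im * m.im := pow_two _
    _ ≤ ‖m‖ * ‖2 * (q : ℂ) * m + z‖ := mul_le_mul h1 h3 h2.le (norm_nonneg _)

lemma inv_im (h : IsM q z m) : (m⁻¹).im = -(z.im + q * m.im) := by
  rw [inv_eq h, Complex.neg_im, Complex.add_im, Complex.mul_im]
  simp

lemma le_norm_sub_inv (h : IsM q z m) {w : ℂ} :
    w.im + (z.im + q * m.im) ≤ ‖w - m⁻¹‖ := by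
  have h1 : (w - m⁻¹).im = w.im + (z.im + q * m.im) := by
    rw [Complex.sub_im, inv_im h]; ring
  rw [← h1]
  exact (le_abs_self _).trans (Complex.abs_im_le_norm _)

lemma im_le_norm_sub_inv (h : IsM q z m) (hz : 0 ≤ z.im) (hq : 1 ≤ q) {w : ℂ} (hw : 0 ≤ w.im) :
    m.im ≤ ‖w - m⁻¹‖ := by
  refine le_trans ?_ (le_norm_sub_inv h)
  have h2 := h.im_pos
  have hq' : (1 : ℝ) ≤ q := by exact_mod_cast hq
  nlinarith

lemma kap_norm (h : IsM q z m) (hz : 0 ≤ z.im) (hq : 1 ≤ q) {K : ℝ} (hK : ‖z‖ ≤ K) :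
    ‖m - m⁻¹‖ ≤ K + q + 1 := by
  have h1 := h.norm_le_one hz hq
  rw [inv_eq h]
  refine (norm_sub_le _ _).trans ?_
  rw [norm_neg]
  have h2 : ‖z + q * m‖ ≤ K + q := by
    refine (norm_add_le _ _).trans ?_
    rw [norm_mul, Complex.norm_natCast]
    have : (q : ℝ) * ‖m‖ ≤ q * 1 := by gcongr
    linarith
  linarith

lemma T_eq (m w : ℂ) (hd : w - m⁻¹ ≠ 0) : T m w = 1 - (m - m⁻¹) / (w - m⁻¹) := by
  unfold T
  rw [eq_sub_iff_add_eq, ← add_div, div_eq_one_iff_eq hd]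
  ring

lemma T_sub_eq (m : ℂ) {w w' : ℂ} (hd : w - m⁻¹ ≠ 0) (hd' : w' - m⁻¹ ≠ 0) :
    T m w - T m w' = (m - m⁻¹) * (w - w') / ((w - m⁻¹) * (w' - m⁻¹)) := by
  unfold T
  rw [div_sub_div _ _ hd hd']
  congr 1
  ring

/-- the recursion in the coordinate `T`: `T(-1/(z+s)) = m² Φ(s - q m)`. -/
lemma T_rec (h : IsM q z m) (hq : 1 ≤ q) (hz : 0 ≤ z.im) {s : ℂ} (hs : 0 ≤ s.im) (hzs : z + s ≠ 0) :
    T m (-1 / (z + s)) = m ^ 2 * Phi (m - m⁻¹) (s - q * m) := by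
  have h0 := h.ne_zero
  have h2 := h.im_pos
  have e1 : s - q * m + (m - m⁻¹) ≠ 0 := by
    intro h0
    have h3 := congrArg Complex.im h0
    have h4 : (s - q * m + (m - m⁻¹)).im = s.im + m.im + z.im := by
      rw [Complex.add_im, Complex.sub_im, Complex.sub_im, inv_im h, Complex.mul_im]
      simp
      ring
    rw [h4] at h3
    simp at h3
    linarith
  have e2 : -1 / (z + s) - m⁻¹ ≠ 0 := by
    intro h0
    have h3 := congrArg Complex.im h0
    rw [Complex.sub_im, inv_im h] at h3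
    have h4 : 0 ≤ (-1 / (z + s)).im := by
      rw [im_neg_inv]
      have : 0 ≤ (z + s).im := by rw [Complex.add_im]; linarith
      exact div_nonneg this (Complex.normSq_nonneg _)
    simp at h3
    have hq' : (1 : ℝ) ≤ q := by exact_mod_cast hq
    nlinarith
  unfold T Phi
  rw [← mul_div_assoc, div_eq_div_iff e2 e1]
  have e3 := h.eq
  field_simp
  linear_combination (1 - m ^ 2) * e3

/-- Uniform constant: everything in one package. -/
structure Pkg (q : ℕ) (c K : ℝ) (z m : ℂ) : Prop where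
  isM : IsM q z m
  hq : 1 ≤ q
  hz : 0 ≤ z.im
  hc : 0 < c
  im : c ≤ m.im
  hK : ‖m - m⁻¹‖ ≤ K
  hK0 : 0 ≤ K

namespace Pkg

variable {c K : ℝ}

lemma den (h : Pkg q c K z m) {w : ℂ} (hw : 0 ≤ w.im) : c ≤ ‖w - m⁻¹‖ :=
  h.im.trans (im_le_norm_sub_inv h.isM h.hz h.hq hw)

lemma den_ne (h : Pkg q c K z m) {w : ℂ} (hw : 0 ≤ w.im) : w - m⁻¹ ≠ 0 := by
  intro h0
  have := h.den hw
  rw [h0, norm_zero] at this
  linarith [h.hc]

lemma T_le (h : Pkg q c K z m) {w : ℂ} (hw : 0 ≤ w.im) : ‖T m w‖ ≤ 1 + K / c := by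
  have hc := h.hc
  have hK0 := h.hK0
  rw [T_eq m w (h.den_ne hw)]
  refine (norm_sub_le _ _).trans ?_
  rw [norm_one, norm_div]
  have h1 := h.den hw
  have h2 := h.hK
  gcongr

lemma T_le' (h : Pkg q c K z m) {w : ℂ} (hw : 0 ≤ w.im) : ‖T m w‖ ≤ ‖w - m‖ / c := by
  have hc := h.hc
  unfold T
  rw [norm_div]
  have h1 := h.den hw
  gcongr

lemma T_ge (h : Pkg q c K z m) {w : ℂ} (hw : 0 ≤ w.im) : min 1 ‖w - m‖ / (1 + K) ≤ ‖T m w‖ := by
  have hc := h.hc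
  have hK0 := h.hK0
  unfold T
  rw [norm_div]
  have h1 : ‖w - m⁻¹‖ ≤ ‖w - m‖ + K := by
    have : w - m⁻¹ = (w - m) + (m - m⁻¹) := by ring
    rw [this]
    refine (norm_add_le _ _).trans ?_
    have := h.hK
    gcongr
  have h2 : 0 < ‖w - m⁻¹‖ := hc.trans_le (h.den hw)
  set x := ‖w - m‖ with hx
  have hx0 : 0 ≤ x := norm_nonneg _
  rw [div_le_div_iff₀ (by linarith) h2]
  calc min 1 x * ‖w - m⁻¹‖ ≤ min 1 x * (x + K) := by
        apply mul_le_mul_of_nonneg_left h1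
        exact le_min zero_le_one hx0
    _ ≤ x * (1 + K) := by
        rcases le_total x 1 with h3 | h3
        · rw [min_eq_right h3]
          gcongr
        · rw [min_eq_left h3]
          nlinarith

lemma T_lip (h : Pkg q c K z m) {w w' : ℂ} (hw : 0 ≤ w.im) (hw' : 0 ≤ w'.im) :
    ‖T m w - T m w'‖ ≤ K / c ^ 2 * ‖w - w'‖ := by
  have hc := h.hc
  have hK0 := h.hK0
  rw [T_sub_eq m (h.den_ne hw) (h.den_ne hw'), norm_div, norm_mul, norm_mul]
  have h1 := h.den hw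
  have h2 := h.den hw'
  have h3 := h.hK
  have h4 : c ^ 2 ≤ ‖w - m⁻¹‖ * ‖w' - m⁻¹‖ := by
    rw [pow_two]
    gcongr
  calc ‖m - m⁻¹‖ * ‖w - w'‖ / (‖w - m⁻¹‖ * ‖w' - m⁻¹‖) ≤ K * ‖w - w'‖ / c ^ 2 := by gcongr
    _ = K / c ^ 2 * ‖w - w'‖ := by ring

lemma Phi_den (h : Pkg q c K z m) {s : ℂ} (hs : 0 ≤ (s + q * m).im) :
    c ≤ ‖s + (m - m⁻¹)‖ := by
  have h2 := h.isM.im_pos
  have h1 : (s + (m - m⁻¹)).im = (s + q * m).im + m.im + z.im := by
    rw [Complex.add_im, Complex.sub_im, inv_im h.isM, Complex.add_im, Complex.mul_im]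
    simp
    ring
  calc c ≤ m.im := h.im
    _ ≤ (s + q * m).im + m.im + z.im := by linarith [h.hz]
    _ = (s + (m - m⁻¹)).im := h1.symm
    _ ≤ _ := (le_abs_self _).trans (Complex.abs_im_le_norm _)

lemma Phi_lip (h : Pkg q c K z m) {s s' : ℂ} (hs : 0 ≤ (s + q * m).im) (hs' : 0 ≤ (s' + q * m).im) :
    ‖Phi (m - m⁻¹) s - Phi (m - m⁻¹) s'‖ ≤ K / c ^ 2 * ‖s - s'‖ := by
  have hc := h.hc
  have hK0 := h.hK0
  have h1 := h.Phi_den hs
  have h2 := h.Phi_den hs'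
  have h3 := h.hK
  have n1 : s + (m - m⁻¹) ≠ 0 := by
    intro h0
    rw [h0, norm_zero] at h1
    linarith
  have n2 : s' + (m - m⁻¹) ≠ 0 := by
    intro h0
    rw [h0, norm_zero] at h2
    linarith
  have e : Phi (m - m⁻¹) s - Phi (m - m⁻¹) s' =
      (m - m⁻¹) * (s - s') / ((s + (m - m⁻¹)) * (s' + (m - m⁻¹))) := by
    unfold Phi
    rw [div_sub_div _ _ n1 n2]
    congr 1
    ring
  rw [e, norm_div, norm_mul, norm_mul]
  have h4 : c ^ 2 ≤ ‖s + (m - m⁻¹)‖ * ‖s' + (m - m⁻¹)‖ := by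
    rw [pow_two]
    gcongr
  calc ‖m - m⁻¹‖ * ‖s - s'‖ / (‖s + (m - m⁻¹)‖ * ‖s' + (m - m⁻¹)‖)
      ≤ K * ‖s - s'‖ / c ^ 2 := by gcongr
    _ = K / c ^ 2 * ‖s - s'‖ := by ring

lemma zs_ne (_h : Pkg q c K z m) (hz' : 0 < z.im) {s : ℂ} (hs : 0 ≤ s.im) : z + s ≠ 0 := by
  intro h0
  have := congrArg Complex.im h0
  rw [Complex.add_im] at this
  simp at this
  linarith

lemma m_sq_le (h : Pkg q c K z m) : ‖m ^ 2‖ ≤ 1 := by
  rw [norm_pow]
  have := h.isM.norm_le_one h.hz h.hq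
  exact pow_le_one₀ (norm_nonneg _) this

lemma rec_lip (h : Pkg q c K z m) (hz' : 0 < z.im) {s s' : ℂ} (hs : 0 ≤ s.im) (hs' : 0 ≤ s'.im) :
    ‖T m (-1 / (z + s)) - T m (-1 / (z + s'))‖ ≤ K / c ^ 2 * ‖s - s'‖ := by
  rw [T_rec h.isM h.hq h.hz hs (h.zs_ne hz' hs), T_rec h.isM h.hq h.hz hs' (h.zs_ne hz' hs'),
    ← mul_sub, norm_mul]
  have h1 := h.Phi_lip (s := s - q * m) (s' := s' - q * m) (by simpa using hs) (by simpa using hs')
  have h2 := h.m_sq_le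
  have e : s - q * m - (s' - q * m) = s - s' := by ring
  rw [e] at h1
  calc ‖m ^ 2‖ * ‖Phi (m - m⁻¹) (s - q * m) - Phi (m - m⁻¹) (s' - q * m)‖
      ≤ 1 * (K / c ^ 2 * ‖s - s'‖) :=
        mul_le_mul h2 h1 (norm_nonneg _) zero_le_one
    _ = _ := one_mul _

lemma T_im_sum (h : Pkg q c K z m) {f : Fin q → ℂ} (hf : ∀ k, 0 ≤ (f k).im) (S : Finset (Fin q)) :
    0 ≤ (∑ k ∈ S, (f k - m) + q * m).im := by
  have h2 := h.isM.im_pos
  have e : (∑ k ∈ S, (f k - m) + q * m).im = ∑ k ∈ S, (f k).im + ((q : ℝ) - S.card) * m.im := by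
    rw [Complex.add_im, Complex.im_sum]
    simp only [Complex.sub_im, Finset.sum_sub_distrib, Finset.sum_const, nsmul_eq_mul,
      Complex.mul_im, Complex.natCast_re, Complex.natCast_im]
    ring
  rw [e]
  have h3 : (S.card : ℝ) ≤ q := by
    have := Finset.card_le_univ S
    rw [Fintype.card_fin] at this
    exact_mod_cast this
  have h4 : 0 ≤ ∑ k ∈ S, (f k).im := Finset.sum_nonneg fun k _ => hf k
  have h5 : 0 ≤ ((q : ℝ) - S.card) * m.im := mul_nonneg (by linarith) h2.le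
  linarith

lemma rec_sum (h : Pkg q c K z m) (hz' : 0 < z.im) {f : Fin q → ℂ} (hf : ∀ k, 0 ≤ (f k).im) :
    ‖T m (-1 / (z + ∑ k, f k)) - m ^ 2 * ∑ k, T m (f k)‖ ≤
      (1 + K / c) * (1 + (1 + K / c) * (1 + K / c)) ^ q *
        ∑ k, ∑ l, if k ≠ l then ‖T m (f k)‖ * ‖T m (f l)‖ else 0 := by
  have hc := h.hc
  have hK0 := h.hK0
  have hs : 0 ≤ (∑ k, f k).im := by
    rw [Complex.im_sum]
    exact Finset.sum_nonneg fun k _ => hf k
  have e0 : ∑ k, f k - q * m = ∑ k : Fin q, (f k - m) := by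
    rw [Finset.sum_sub_distrib]
    simp
  rw [T_rec h.isM h.hq h.hz hs (h.zs_ne hz' hs), ← mul_sub, norm_mul, e0]
  have e1 : ∀ k, T m (f k) = Phi (m - m⁻¹) (f k - m) := fun k => T_eq_Phi m (f k)
  simp only [e1]
  have h1 := (Phi_sum (κ := m - m⁻¹) (s := fun k : Fin q => f k - m) (c := c) (B := 1 + K / c) hc
    (by positivity) Finset.univ
    (fun S' _ => h.Phi_den (h.T_im_sum hf S'))
    (fun k _ => by
      have := h.Phi_den (h.T_im_sum hf {k})
      simpa using this)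
    (fun k _ => by
      rw [← e1 k]
      exact h.T_le (hf k))).2
  have h2 := h.m_sq_le
  have e2 : (∑ k : Fin q, ‖Phi (m - m⁻¹) (f k - m)‖) ^ 2 -
      ∑ k : Fin q, ‖Phi (m - m⁻¹) (f k - m)‖ ^ 2 =
      ∑ k : Fin q, ∑ l, if k ≠ l then ‖Phi (m - m⁻¹) (f k - m)‖ * ‖Phi (m - m⁻¹) (f l - m)‖
        else 0 := by
    rw [pow_two, Finset.sum_mul_sum, ← Finset.sum_sub_distrib]
    refine Finset.sum_congr rfl fun k _ => ?_
    have e3 : ∀ l, (if k ≠ l then ‖Phi (m - m⁻¹) (f k - m)‖ * ‖Phi (m - m⁻¹) (f l - m)‖ else 0) =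
        ‖Phi (m - m⁻¹) (f k - m)‖ * ‖Phi (m - m⁻¹) (f l - m)‖ -
        (if k = l then ‖Phi (m - m⁻¹) (f k - m)‖ * ‖Phi (m - m⁻¹) (f l - m)‖ else 0) := by
      intro l
      by_cases hkl : k = l
      · simp [hkl]
      · simp [hkl]
    simp only [e3, Finset.sum_sub_distrib, Finset.sum_ite_eq, Finset.mem_univ, if_true, pow_two]
  rw [e2] at h1
  have hX : 0 ≤ ∑ k : Fin q, ∑ l, (if k ≠ l then ‖Phi (m - m⁻¹) (f k - m)‖ *
      ‖Phi (m - m⁻¹) (f l - m)‖ else 0) := by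
    refine Finset.sum_nonneg fun k _ => Finset.sum_nonneg fun l _ => ?_
    split_ifs <;> positivity
  have h3 : 1 + ‖m - m⁻¹‖ / c ≤ 1 + K / c := by
    have := h.hK
    gcongr
  have h4 : 0 ≤ 1 + ‖m - m⁻¹‖ / c := by positivity
  calc ‖m ^ 2‖ * ‖Phi (m - m⁻¹) (∑ k, (f k - m)) - ∑ k, Phi (m - m⁻¹) (f k - m)‖
      ≤ 1 * ((1 + ‖m - m⁻¹‖ / c) * (1 + (1 + ‖m - m⁻¹‖ / c) * (1 + K / c)) ^
          (Finset.univ : Finset (Fin q)).card * _) :=
        mul_le_mul h2 h1 (norm_nonneg _) zero_le_one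
    _ ≤ (1 + K / c) * (1 + (1 + K / c) * (1 + K / c)) ^ q * _ := by
        rw [one_mul, Finset.card_univ, Fintype.card_fin]
        have h5 : 0 ≤ 1 + K / c := by positivity
        gcongr

end Pkg

lemma sq_lt_of_bulk {d : ℕ} {a b : ℝ} (hB : Bulk d a b) :
    ∃ δ > 0, ∀ E ∈ Set.Icc a b, δ ≤ 4 * ((d : ℝ) - 1) - E ^ 2 := by
  obtain ⟨hd, _, ha, hb⟩ := hB
  have hd' : (3 : ℝ) ≤ d := by exact_mod_cast hd
  set s := Real.sqrt ((d : ℝ) - 1) with hs
  have hs0 : 0 ≤ s := Real.sqrt_nonneg _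
  have hs2 : s ^ 2 = (d : ℝ) - 1 := Real.sq_sqrt (by linarith)
  set M := max |a| |b| with hM
  by_cases hab : a ≤ b
  · have hM1 : M < 2 * s := by
      apply max_lt
      · rw [abs_lt]
        constructor <;> linarith
      · rw [abs_lt]
        constructor <;> linarith
    have hM0 : 0 ≤ M := le_max_of_le_left (abs_nonneg _)
    refine ⟨4 * ((d : ℝ) - 1) - M ^ 2, by rw [← hs2]; nlinarith, ?_⟩
    intro E hE
    have h1 : |E| ≤ M := abs_le_max_abs_abs hE.1 hE.2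
    have h2 : E ^ 2 ≤ M ^ 2 := by
      rw [← sq_abs E]
      gcongr
    linarith
  · exact ⟨1, one_pos, fun E hE => absurd (hE.1.trans hE.2) hab⟩

lemma cast_q {d : ℕ} (hd : 3 ≤ d) : (((d - 1 : ℕ)) : ℝ) = (d : ℝ) - 1 := by
  push_cast [Nat.cast_sub (by omega : 1 ≤ d)]
  ring

lemma zz_re (E η : ℝ) : (FE.zz E η).re = E := by simp [FE.zz]
lemma zz_im (E η : ℝ) : (FE.zz E η).im = η := by simp [FE.zz]

lemma mm_isM {d : ℕ} (hd : 3 ≤ d) {E η : ℝ} (hη : 0 < η) :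
    IsM (d - 1) (FE.zz E η) (mm d (FE.zz E η)) :=
  mz_isM (by omega) (by rw [zz_im]; exact hη)

/-- The package for `z = E + iη`. -/
lemma exists_pkg {d : ℕ} {a b : ℝ} (hB : Bulk d a b) :
    ∃ c K : ℝ, 0 < c ∧ c ≤ 1 ∧ 0 ≤ K ∧ ∀ E ∈ Set.Icc a b, ∀ η : ℝ, 0 < η → η ≤ 1 →
      Pkg (d - 1) c K (FE.zz E η) (mm d (FE.zz E η)) := by
  obtain ⟨δ, hδ, hE⟩ := sq_lt_of_bulk hB
  have hd := hB.1
  have hd' : (3 : ℝ) ≤ d := by exact_mod_cast hd
  have hq := cast_q hd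
  set Q : ℝ := ((d - 1 : ℕ) : ℝ) with hQ
  have hQ2 : 2 ≤ Q := by rw [hq]; linarith
  have hp : 0 < 4 * Q ^ 2 + 4 * Q := by positivity
  refine ⟨min 1 (δ / (4 * Q ^ 2 + 4 * Q)), (max |a| |b| + 1) + Q + 1, by positivity,
    min_le_left _ _, by positivity, ?_⟩
  intro E hEm η hη hη1
  have hM := mm_isM (d := d) hd (E := E) hη
  have hz : 0 ≤ (FE.zz E η).im := by rw [zz_im]; exact hη.le
  refine ⟨hM, by omega, hz, by positivity, ?_, ?_, by positivity⟩
  · refine (min_le_right _ _).trans ?_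
    refine le_trans ?_ (im_low hM (by omega) hz (by rw [zz_im]; exact hη1))
    rw [zz_re]
    have := hE E hEm
    rw [← hq] at this
    gcongr
  · apply kap_norm hM hz (by omega)
    have h1 : ‖FE.zz E η‖ ≤ |E| + η := by
      unfold FE.zz
      refine (norm_add_le _ _).trans ?_
      rw [norm_mul, Complex.norm_I, mul_one, Complex.norm_real, Complex.norm_real,
        Real.norm_eq_abs, Real.norm_of_nonneg hη.le]
    have h2 : |E| ≤ max |a| |b| := abs_le_max_abs_abs hEm.1 hEm.2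
    linarith

/-- **FE1a.** -/
theorem specM {d : ℕ} {a b : ℝ} (hB : Bulk d a b) : SpecM d a b := by
  obtain ⟨c, K, hc, hc1, hK0, hpkg⟩ := exists_pkg hB
  obtain ⟨δ, hδ, hEδ⟩ := sq_lt_of_bulk hB
  have hd := hB.1
  have hd' : (3 : ℝ) ≤ d := by exact_mod_cast hd
  have hq := cast_q hd
  have hqc : (((d - 1 : ℕ)) : ℂ) = (d : ℂ) - 1 := cast_pred (by omega)
  set c' : ℝ := min (c ^ 2) (Real.sqrt δ / (2 * ((d : ℝ) - 1))) with hc'
  have hc'0 : 0 < c' := by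
    have : 0 < Real.sqrt δ := Real.sqrt_pos.2 hδ
    have h1 : 0 < 2 * ((d : ℝ) - 1) := by linarith
    positivity
  have hcc : c' ≤ c := (min_le_left _ _).trans (by nlinarith)
  have hc'1 : c' ≤ 1 := hcc.trans hc1
  refine ⟨c', hc'0, hc'1, ?_, ?_, ?_⟩
  · intro E hE η hη hη1
    have hp := hpkg E hE η hη hη1
    have hM := hp.isM
    have hz := hp.hz
    refine ⟨hcc.trans hp.im, hM.norm_le_one hz (by omega), ?_, ?_, ?_⟩
    · have := hM.norm_sq_le hz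
      rwa [hq] at this
    · have h1 := gap_low hM hz (by omega)
      rw [hqc] at h1
      have h2 : c ^ 2 ≤ (mm d (FE.zz E η)).im ^ 2 := by
        have := hp.im
        gcongr
      exact (min_le_left _ _).trans (h2.trans h1)
    · have := hM.eq
      rwa [hqc] at this
  · intro E hE η η' hη hη1 hη' hη'1
    have hp := hpkg E hE η hη hη1
    have hp' := hpkg E hE η' hη' hη'1
    set m := mm d (FE.zz E η) with hm
    set m' := mm d (FE.zz E η') with hm'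
    have e1 := hp.isM.eq
    have e2 := hp'.isM.eq
    have e3 : (m - m') * ((((d - 1 : ℕ)) : ℂ) * (m + m') + FE.zz E η) =
        -((FE.zz E η - FE.zz E η') * m') := by
      linear_combination e1 - e2
    have h3 : c ≤ ‖(((d - 1 : ℕ)) : ℂ) * (m + m') + FE.zz E η‖ := by
      have h4 : ((((d - 1 : ℕ)) : ℂ) * (m + m') + FE.zz E η).im =
          ((d - 1 : ℕ) : ℝ) * (m.im + m'.im) + η := by
        rw [Complex.add_im, Complex.mul_im, zz_im]
        simp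
      have h5 := hp.im
      have h6 := hp'.im
      have h7 := hp'.isM.im_pos
      have h8 : (1 : ℝ) ≤ ((d - 1 : ℕ) : ℝ) := by rw [hq]; linarith
      calc c ≤ ((d - 1 : ℕ) : ℝ) * (m.im + m'.im) + η := by nlinarith
        _ = _ := h4.symm
        _ ≤ _ := (le_abs_self _).trans (Complex.abs_im_le_norm _)
    have h5 : ‖m - m'‖ * ‖(((d - 1 : ℕ)) : ℂ) * (m + m') + FE.zz E η‖ = |η - η'| * ‖m'‖ := by
      rw [← norm_mul, e3, norm_neg, norm_mul]
      congr 1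
      have : FE.zz E η - FE.zz E η' = ((η - η' : ℝ) : ℂ) * I := by
        unfold FE.zz
        push_cast
        ring
      rw [this, norm_mul, Complex.norm_I, mul_one, Complex.norm_real, Real.norm_eq_abs]
    have h6 : ‖m'‖ ≤ 1 := hp'.isM.norm_le_one hp'.hz (by omega)
    have h7 : ‖m - m'‖ * c ≤ |η - η'| := by
      calc ‖m - m'‖ * c ≤ ‖m - m'‖ * ‖(((d - 1 : ℕ)) : ℂ) * (m + m') + FE.zz E η‖ := by gcongr
        _ = |η - η'| * ‖m'‖ := h5
        _ ≤ |η - η'| * 1 := by gcongr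
        _ = _ := mul_one _
    calc ‖m - m'‖ ≤ c⁻¹ * |η - η'| := by
          rw [inv_mul_eq_div, le_div_iff₀ hc]
          exact h7
      _ ≤ c'⁻¹ * |η - η'| := by gcongr
  · intro E hE η hη hη1
    have hE2 : E ^ 2 < 4 * ((d : ℝ) - 1) := by
      have := hEδ E hE
      linarith
    have hr := mE_root (d := d) (by omega) hE2
    have hM := mm_isM (d := d) hd (E := E) hη
    have h1 := norm_sub_root_le hr hM hη.le
    refine h1.trans ?_
    have h2 : c' ≤ (mE d E).im := by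
      refine (min_le_right _ _).trans ?_
      rw [mE_im]
      have h3 : Real.sqrt δ ≤ Real.sqrt (4 * ((d : ℝ) - 1) - E ^ 2) :=
        Real.sqrt_le_sqrt (hEδ E hE)
      have h4 : 0 < 2 * ((d : ℝ) - 1) := by linarith
      gcongr
    rw [div_eq_inv_mul]
    gcongr

/-- **FE1b.** -/
theorem specT {d : ℕ} {a b : ℝ} (hB : Bulk d a b) : SpecT d a b := by
  obtain ⟨c, K, hc, hc1, hK0, hpkg⟩ := exists_pkg hB
  have hd := hB.1
  set C₁ : ℝ := (1 + K / c) * (1 + (1 + K / c) * (1 + K / c)) ^ (d - 1) with hC₁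
  have hC₁0 : 0 ≤ C₁ := by positivity
  have hcinv : 1 ≤ c⁻¹ := (one_le_inv₀ hc).2 hc1
  set C : ℝ := 1 + K + K / c + c⁻¹ + K / c ^ 2 + C₁ with hC
  have hC1 : 1 ≤ C := by
    have : 0 ≤ K + K / c + c⁻¹ + K / c ^ 2 + C₁ := by positivity
    linarith
  have hC0 : 0 < C := by linarith
  refine ⟨C, hC1, ?_⟩
  rintro E hE η hη hη1 z m rfl rfl
  have hp := hpkg E hE η hη hη1
  have hz' : 0 < (FE.zz E η).im := by rw [zz_im]; exact hη
  refine ⟨?_, ?_, ?_, ?_⟩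
  · intro h hh
    have hmin : 0 ≤ min 1 ‖h - mm d (FE.zz E η)‖ := le_min zero_le_one (norm_nonneg _)
    refine ⟨?_, ?_⟩
    · refine le_trans ?_ (hp.T_ge hh)
      rw [div_eq_inv_mul]
      apply mul_le_mul_of_nonneg_right _ hmin
      apply inv_anti₀ (by linarith)
      have : 0 ≤ K / c + c⁻¹ + K / c ^ 2 + C₁ := by positivity
      linarith
    · rcases le_total 1 ‖h - mm d (FE.zz E η)‖ with h1 | h1
      · rw [min_eq_left h1, mul_one]
        refine (hp.T_le hh).trans ?_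
        have : 0 ≤ K + c⁻¹ + K / c ^ 2 + C₁ := by positivity
        linarith
      · rw [min_eq_right h1]
        refine (hp.T_le' hh).trans ?_
        rw [div_eq_inv_mul]
        apply mul_le_mul_of_nonneg_right _ (norm_nonneg _)
        have : 0 ≤ 1 + K + K / c + K / c ^ 2 + C₁ := by positivity
        linarith
  · intro h h' hh hh'
    refine (hp.T_lip hh hh').trans ?_
    apply mul_le_mul_of_nonneg_right _ (norm_nonneg _)
    have : 0 ≤ 1 + K + K / c + c⁻¹ + C₁ := by positivity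
    linarith
  · intro s s' hs hs'
    refine (hp.rec_lip hz' hs hs').trans ?_
    apply mul_le_mul_of_nonneg_right _ (norm_nonneg _)
    have : 0 ≤ 1 + K + K / c + c⁻¹ + C₁ := by positivity
    linarith
  · intro f hf
    refine (hp.rec_sum hz' hf).trans ?_
    apply mul_le_mul_of_nonneg_right
    · rw [← hC₁]
      have : 0 ≤ 1 + K + K / c + c⁻¹ + K / c ^ 2 := by positivity
      linarith
    · refine Finset.sum_nonneg fun k _ => Finset.sum_nonneg fun l _ => ?_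
      split_ifs <;> positivity

end

end Vale.Agent.P156.H913
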